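import Mathlib

/-!
Definitions of the three-marginal Coulomb transport problem in three-dimensional Euclidean space.
-/

noncomputable section

open MeasureTheory
open scoped ENNReal

namespace Vale.Agent.P121

/-- The Coulomb cost of three points, with value `∞` when two of them coincide. -/
def coulomb (p : EuclideanSpace ℝ (Fin 3) × EuclideanSpace ℝ (Fin 3) × EuclideanSpace ℝ (Fin 3)) :
    ℝ≥0∞ :=
  (edist p.1 p.2.1)⁻¹ + (edist p.1 p.2.2)⁻¹ + (edist p.2.1 p.2.2)⁻¹

/-- The Kantorovich value: infimum of the total cost over all couplings whose three marginals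
all equal the given measure. -/
def kantorovichValue (μ : Measure (EuclideanSpace ℝ (Fin 3))) : ℝ≥0∞ :=
  ⨅ (π : Measure (EuclideanSpace ℝ (Fin 3) × EuclideanSpace ℝ (Fin 3) × EuclideanSpace ℝ (Fin 3)))
    (_ : π.map (fun p => p.1) = μ ∧ π.map (fun p => p.2.1) = μ ∧ π.map (fun p => p.2.2) = μ),
    ∫⁻ p, coulomb p ∂π

lemma measurable_coulomb : Measurable coulomb := by
  unfold coulomb
  fun_prop

end Vale.Agent.P121
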