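import Mathlib
import Vale.Agent.P121.Defs

/-!
From a five-branch dual certificate to the non-existence of an optimal Monge plan.
-/

noncomputable section

open MeasureTheory Set Function
open scoped ENNReal Classical

namespace Vale.Agent.P121

local instance : Fact (0 < 3) := ⟨by norm_num⟩

/-- the twelve index patterns of the two branches -/
def goodList : List (Fin 5 × Fin 5 × Fin 5) :=
  [(0,1,2), (0,2,1), (1,0,2), (1,2,0), (2,0,1), (2,1,0),
   (0,3,4), (0,4,3), (3,0,4), (3,4,0), (4,0,3), (4,3,0)]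

/-- weights of the five pieces -/
def wt (i : Fin 5) : ℝ≥0∞ := if i = 0 then 3⁻¹ else 6⁻¹

/-- a five-branch dual certificate -/
structure Cert where
  B : Set (EuclideanSpace ℝ (Fin 3))
  compact : IsCompact B
  pos : volume B ≠ 0
  F : Fin 5 → EuclideanSpace ℝ (Fin 3) → EuclideanSpace ℝ (Fin 3)
  W : Fin 5 → EuclideanSpace ℝ (Fin 3) → ℝ
  F_zero : ∀ x, F 0 x = x
  cont : ∀ i, ContinuousOn (F i) B
  contW : ∀ i, ContinuousOn (W i) B
  inj : ∀ i, InjOn (F i) B
  null : ∀ i N, volume N = 0 → volume (B ∩ F i ⁻¹' N) = 0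
  disj : ∀ i j, ∀ a ∈ B, ∀ b ∈ B, F i a = F j b → i = j
  ineq : ∀ i j k, ∀ a ∈ B, ∀ b ∈ B, ∀ c ∈ B,
    ENNReal.ofReal (W i a) + ENNReal.ofReal (W j b) + ENNReal.ofReal (W k c)
      ≤ coulomb (F i a, F j b, F k c) ∧
    (ENNReal.ofReal (W i a) + ENNReal.ofReal (W j b) + ENNReal.ofReal (W k c)
      = coulomb (F i a, F j b, F k c) → (i, j, k) ∈ goodList ∧ a = b ∧ b = c)
  exact : ∀ p ∈ goodList, ∀ a ∈ B,
    ENNReal.ofReal (W p.1 a) + ENNReal.ofReal (W p.2.1 a) + ENNReal.ofReal (W p.2.2 a)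
      = coulomb (F p.1 a, F p.2.1 a, F p.2.2 a)

namespace Cert

variable (C : Cert)

/-- uniform probability on the base set -/
def m : Measure (EuclideanSpace ℝ (Fin 3)) := (volume C.B)⁻¹ • volume.restrict C.B

lemma finiteB : volume C.B ≠ ∞ := C.compact.measure_lt_top.ne

lemma m_B : C.m C.B = 1 := by
  rw [m, Measure.smul_apply, Measure.restrict_apply_self, smul_eq_mul,
    ENNReal.inv_mul_cancel C.pos C.finiteB]

lemma m_ac : C.m ≪ volume.restrict C.B :=
  (Measure.AbsolutelyContinuous.refl _).smul_left _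

instance : IsProbabilityMeasure C.m := ⟨by
  rw [m, Measure.smul_apply, Measure.restrict_apply_univ, smul_eq_mul,
    ENNReal.inv_mul_cancel C.pos C.finiteB]⟩

lemma ae_B : ∀ᵐ x ∂C.m, x ∈ C.B :=
  C.m_ac.ae_le (ae_restrict_mem C.compact.measurableSet)

lemma aem (i : Fin 5) : AEMeasurable (C.F i) C.m :=
  ((C.cont i).aemeasurable C.compact.measurableSet).smul_measure _

/-- the marginal -/
def μ : Measure (EuclideanSpace ℝ (Fin 3)) := ∑ i, wt i • C.m.map (C.F i)

lemma μ_apply {s : Set (EuclideanSpace ℝ (Fin 3))} (hs : MeasurableSet s) :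
    C.μ s = ∑ i, wt i * C.m (C.F i ⁻¹' s) := by
  simp [μ, Measure.map_apply_of_aemeasurable (C.aem _) hs]

lemma sum_wt : ∑ i, wt i = 1 := by
  have h6 : (6 : ℝ≥0∞)⁻¹ = ENNReal.ofReal (1/6) := by
    rw [one_div, ENNReal.ofReal_inv_of_pos (by norm_num)]; norm_num
  have h3 : (3 : ℝ≥0∞)⁻¹ = ENNReal.ofReal (1/3) := by
    rw [one_div, ENNReal.ofReal_inv_of_pos (by norm_num)]; norm_num
  simp only [Fin.sum_univ_five, wt, Fin.reduceEq, if_true, if_false, h6, h3]
  rw [← ENNReal.ofReal_add, ← ENNReal.ofReal_add, ← ENNReal.ofReal_add, ← ENNReal.ofReal_add] <;>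
    norm_num

instance : IsProbabilityMeasure C.μ := ⟨by
  rw [μ_apply _ MeasurableSet.univ]
  simp [sum_wt]⟩

lemma μ_ac : C.μ ≪ volume := by
  refine Measure.AbsolutelyContinuous.mk fun s hs h0 => ?_
  rw [μ_apply _ hs]
  refine Finset.sum_eq_zero fun i _ => ?_
  rw [mul_eq_zero]
  refine Or.inr ?_
  rw [m, Measure.smul_apply, Measure.restrict_apply' C.compact.measurableSet, inter_comm,
    C.null i s h0, smul_zero]

lemma F_mem_image {i j : Fin 5} {G : Set _} (hG : G ⊆ C.B) {a : EuclideanSpace ℝ (Fin 3)}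
    (ha : a ∈ C.B) : C.F j a ∈ C.F i '' G ↔ j = i ∧ a ∈ G := by
  constructor
  · rintro ⟨b, hb, h⟩
    have := C.disj i j b (hG hb) a ha h
    subst this
    exact ⟨rfl, (C.inj i (hG hb) ha h) ▸ hb⟩
  · rintro ⟨rfl, h⟩
    exact mem_image_of_mem _ h

lemma meas_image (i : Fin 5) {G : Set _} (hG : G ⊆ C.B) (hm : MeasurableSet G) :
    MeasurableSet (C.F i '' G) :=
  hm.image_of_continuousOn_injOn ((C.cont i).mono hG) ((C.inj i).mono hG)

lemma μ_image (i : Fin 5) {G : Set _} (hG : G ⊆ C.B) (hm : MeasurableSet G) :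
    C.μ (C.F i '' G) = wt i * C.m G := by
  rw [μ_apply _ (C.meas_image i hG hm), Finset.sum_eq_single i]
  · congr 1
    apply measure_congr
    filter_upwards [C.ae_B] with x hx
    exact propext ((C.F_mem_image hG hx).trans ⟨fun h => h.2, fun h => ⟨rfl, h⟩⟩)
  · intro j _ hj
    rw [mul_eq_zero]
    refine Or.inr (measure_eq_zero_iff_ae_notMem.mpr ?_)
    filter_upwards [C.ae_B] with x hx
    exact fun h => hj ((C.F_mem_image hG hx).mp h).1
  · simp

/-- the union of the five pieces -/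
def S : Set (EuclideanSpace ℝ (Fin 3)) := ⋃ i, C.F i '' C.B

lemma ae_S : ∀ᵐ x ∂C.μ, x ∈ C.S := by
  have hS : MeasurableSet C.S :=
    MeasurableSet.iUnion fun i => C.meas_image i subset_rfl C.compact.measurableSet
  rw [ae_iff]
  change C.μ C.Sᶜ = 0
  rw [μ_apply _ hS.compl]
  refine Finset.sum_eq_zero fun i _ => ?_
  rw [mul_eq_zero]
  refine Or.inr (measure_eq_zero_iff_ae_notMem.mpr ?_)
  filter_upwards [C.ae_B] with x hx
  exact fun h => h (mem_iUnion.mpr ⟨i, mem_image_of_mem _ hx⟩)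

/-- potential on one piece, zero elsewhere -/
def piece (i : Fin 5) : EuclideanSpace ℝ (Fin 3) → ℝ≥0∞ :=
  Function.extend (C.B.restrict (C.F i)) (fun a => ENNReal.ofReal (C.W i a)) 0

/-- the dual potential -/
def U (x : EuclideanSpace ℝ (Fin 3)) : ℝ≥0∞ := ∑ i, C.piece i x

lemma emb (i : Fin 5) : MeasurableEmbedding (C.B.restrict (C.F i)) := by
  haveI : CompactSpace C.B := isCompact_iff_compactSpace.mp C.compact
  exact ((C.cont i).restrict).measurableEmbedding (injOn_iff_injective.mp (C.inj i))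

lemma meas_U : Measurable C.U := by
  refine Finset.measurable_sum _ fun i _ => ?_
  exact (C.emb i).measurable_extend
    ((continuousOn_iff_continuous_restrict.mp (C.contW i)).measurable.ennreal_ofReal)
    measurable_zero

lemma U_apply (i : Fin 5) {a : EuclideanSpace ℝ (Fin 3)} (ha : a ∈ C.B) :
    C.U (C.F i a) = ENNReal.ofReal (C.W i a) := by
  rw [U, Finset.sum_eq_single i]
  · exact (C.emb i).injective.extend_apply _ _ (⟨a, ha⟩ : C.B)
  · intro j _ hj
    rw [piece, extend_apply']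
    · rfl
    · rintro ⟨⟨b, hb⟩, h⟩
      exact hj (C.disj j i b hb a ha h)
  · simp

lemma U_le_coulomb {x y z} (hx : x ∈ C.S) (hy : y ∈ C.S) (hz : z ∈ C.S) :
    C.U x + C.U y + C.U z ≤ coulomb (x, y, z) ∧
    (C.U x + C.U y + C.U z = coulomb (x, y, z) → ∃ p ∈ goodList, ∃ a ∈ C.B,
      x = C.F p.1 a ∧ y = C.F p.2.1 a ∧ z = C.F p.2.2 a) := by
  obtain ⟨i, a, ha, rfl⟩ := mem_iUnion.mp hx
  obtain ⟨j, b, hb, rfl⟩ := mem_iUnion.mp hy
  obtain ⟨k, c, hc, rfl⟩ := mem_iUnion.mp hz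
  rw [C.U_apply i ha, C.U_apply j hb, C.U_apply k hc]
  refine ⟨(C.ineq i j k a ha b hb c hc).1, fun h => ?_⟩
  obtain ⟨hg, rfl, rfl⟩ := (C.ineq i j k a ha b hb c hc).2 h
  exact ⟨_, hg, a, ha, rfl, rfl, rfl⟩

lemma lintegral_U_ne_top : ∫⁻ x, C.U x ∂C.μ ≠ ∞ := by
  choose M hM using fun i => C.compact.exists_bound_of_continuousOn (C.contW i)
  refine (lt_of_le_of_lt (lintegral_mono_ae (g := fun _ => ∑ i, ENNReal.ofReal (M i)) ?_) ?_).ne
  · filter_upwards [C.ae_S] with x hx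
    obtain ⟨i, a, ha, rfl⟩ := mem_iUnion.mp hx
    rw [C.U_apply i ha]
    exact le_trans (ENNReal.ofReal_le_ofReal (le_trans (le_abs_self _) (hM i a ha)))
      (Finset.single_le_sum (f := fun i => ENNReal.ofReal (M i)) (fun _ _ => zero_le)
        (Finset.mem_univ i))
  · simp [ENNReal.sum_lt_top]

lemma lintegral_sum_U {π : Measure (EuclideanSpace ℝ (Fin 3) × EuclideanSpace ℝ (Fin 3) ×
      EuclideanSpace ℝ (Fin 3))}
    (h1 : π.map (fun p => p.1) = C.μ) (h2 : π.map (fun p => p.2.1) = C.μ)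
    (h3 : π.map (fun p => p.2.2) = C.μ) :
    ∫⁻ p, (C.U p.1 + C.U p.2.1 + C.U p.2.2) ∂π = 3 * ∫⁻ x, C.U x ∂C.μ := by
  have hU := C.meas_U
  rw [lintegral_add_left (by fun_prop), lintegral_add_left (by fun_prop)]
  have e : ∀ (f : _ → EuclideanSpace ℝ (Fin 3)), Measurable f → π.map f = C.μ →
      ∫⁻ p, C.U (f p) ∂π = ∫⁻ x, C.U x ∂C.μ := fun f hf h => by
    rw [← h, lintegral_map hU hf]
  rw [e (fun p => p.1) (by fun_prop) h1, e (fun p => p.2.1) (by fun_prop) h2,
    e (fun p => p.2.2) (by fun_prop) h3]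
  ring

/-- one branch map in a given order of the coordinates -/
def tri (p : Fin 5 × Fin 5 × Fin 5) (x : EuclideanSpace ℝ (Fin 3)) :
    EuclideanSpace ℝ (Fin 3) × EuclideanSpace ℝ (Fin 3) × EuclideanSpace ℝ (Fin 3) :=
  (C.F p.1 x, C.F p.2.1 x, C.F p.2.2 x)

/-- the symmetrised plan -/
def plan : Measure (EuclideanSpace ℝ (Fin 3) × EuclideanSpace ℝ (Fin 3) ×
    EuclideanSpace ℝ (Fin 3)) :=
  (6 : ℝ≥0∞)⁻¹ • (C.m.map (C.tri (0, 1, 2)) + C.m.map (C.tri (1, 2, 0)) + C.m.map (C.tri (2, 0, 1))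
    + C.m.map (C.tri (0, 3, 4)) + C.m.map (C.tri (3, 4, 0)) + C.m.map (C.tri (4, 0, 3)))

lemma aem_tri (p : Fin 5 × Fin 5 × Fin 5) : AEMeasurable (C.tri p) C.m :=
  (C.aem _).prodMk ((C.aem _).prodMk (C.aem _))

lemma map_tri {f : _ → EuclideanSpace ℝ (Fin 3)} (hf : Measurable f) (p : Fin 5 × Fin 5 × Fin 5) :
    (C.m.map (C.tri p)).map f = C.m.map (f ∘ C.tri p) :=
  AEMeasurable.map_map_of_aemeasurable hf.aemeasurable (C.aem_tri p)

lemma μ_expand : C.μ = (6 : ℝ≥0∞)⁻¹ • (C.m.map (C.F 0) + C.m.map (C.F 0) + C.m.map (C.F 1)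
    + C.m.map (C.F 2) + C.m.map (C.F 3) + C.m.map (C.F 4)) := by
  have h : (3 : ℝ≥0∞)⁻¹ = 6⁻¹ + 6⁻¹ := by
    rw [← two_mul, show (6 : ℝ≥0∞) = 2 * 3 by norm_num,
      ENNReal.mul_inv (Or.inl (by norm_num)) (Or.inl (by norm_num)), ← mul_assoc,
      ENNReal.mul_inv_cancel (by norm_num) (by norm_num), one_mul]
  simp only [μ, Fin.sum_univ_five, wt, Fin.reduceEq, if_true, if_false, h, smul_add, add_smul]

lemma plan_fst : C.plan.map (fun p => p.1) = C.μ := by
  rw [μ_expand, plan, Measure.map_smul]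
  congr 1
  simp only [Measure.map_add _ _ (measurable_fst (α := EuclideanSpace ℝ (Fin 3))
    (β := EuclideanSpace ℝ (Fin 3) × EuclideanSpace ℝ (Fin 3))),
    C.map_tri measurable_fst]
  simp only [comp_def, tri]
  abel

lemma plan_snd : C.plan.map (fun p => p.2.1) = C.μ := by
  have hm : Measurable (fun p : EuclideanSpace ℝ (Fin 3) × EuclideanSpace ℝ (Fin 3) ×
    EuclideanSpace ℝ (Fin 3) => p.2.1) := by fun_prop
  rw [μ_expand, plan, Measure.map_smul]
  congr 1
  simp only [Measure.map_add _ _ hm, C.map_tri hm]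
  simp only [comp_def, tri]
  abel

lemma plan_trd : C.plan.map (fun p => p.2.2) = C.μ := by
  have hm : Measurable (fun p : EuclideanSpace ℝ (Fin 3) × EuclideanSpace ℝ (Fin 3) ×
    EuclideanSpace ℝ (Fin 3) => p.2.2) := by fun_prop
  rw [μ_expand, plan, Measure.map_smul]
  congr 1
  simp only [Measure.map_add _ _ hm, C.map_tri hm]
  simp only [comp_def, tri]
  abel

lemma plan_cost : ∫⁻ p, coulomb p ∂C.plan = 3 * ∫⁻ x, C.U x ∂C.μ := by
  rw [← C.lintegral_sum_U C.plan_fst C.plan_snd C.plan_trd]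
  have key : ∀ p ∈ goodList, ∫⁻ q, coulomb q ∂(C.m.map (C.tri p))
      = ∫⁻ q, (C.U q.1 + C.U q.2.1 + C.U q.2.2) ∂(C.m.map (C.tri p)) := by
    intro p hp
    have hU := C.meas_U
    rw [lintegral_map' measurable_coulomb.aemeasurable (C.aem_tri p),
      lintegral_map' (by fun_prop) (C.aem_tri p)]
    refine lintegral_congr_ae ?_
    filter_upwards [C.ae_B] with x hx
    simp only [tri]
    rw [C.U_apply _ hx, C.U_apply _ hx, C.U_apply _ hx]
    exact (C.exact p hp x hx).symm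
  simp only [plan, lintegral_smul_measure, lintegral_add_measure]
  rw [key _ (by decide), key _ (by decide), key _ (by decide), key _ (by decide),
    key _ (by decide), key _ (by decide)]

lemma ae_S_of_map {α : Type*} [MeasurableSpace α] {π : Measure α}
    {f : α → EuclideanSpace ℝ (Fin 3)} (hf : Measurable f) (h : π.map f = C.μ) :
    ∀ᵐ p ∂π, f p ∈ C.S :=
  ae_of_ae_map hf.aemeasurable (h ▸ C.ae_S)

lemma value_eq : kantorovichValue C.μ = 3 * ∫⁻ x, C.U x ∂C.μ := by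
  refine le_antisymm (iInf₂_le_of_le C.plan ⟨C.plan_fst, C.plan_snd, C.plan_trd⟩
    C.plan_cost.le) (le_iInf₂ fun π hπ => ?_)
  rw [← C.lintegral_sum_U hπ.1 hπ.2.1 hπ.2.2]
  refine lintegral_mono_ae ?_
  filter_upwards [C.ae_S_of_map (by fun_prop) hπ.1, C.ae_S_of_map (by fun_prop) hπ.2.1,
    C.ae_S_of_map (by fun_prop) hπ.2.2] with p a b c
  exact (C.U_le_coulomb a b c).1

lemma value_lt_top : kantorovichValue C.μ < ∞ := by
  rw [C.value_eq]
  exact ENNReal.mul_lt_top (by norm_num) C.lintegral_U_ne_top.lt_top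

lemma pattern_count : ∀ p ∈ goodList,
    (if p.1 = 0 ∧ (p.2.1 = 1 ∨ p.2.1 = 2) then 1 else 0) + (if p.1 = 1 then 1 else 0)
      + (if p.1 = 2 then 1 else 0)
    = (if p.1 = 1 then 1 else 0) + (if p.2.1 = 1 then 1 else 0)
      + (if p.2.2 = 1 then (1 : ℕ) else 0) := by
  intro p hp
  simp only [goodList, List.mem_cons, List.not_mem_nil, or_false] at hp
  rcases hp with rfl | rfl | rfl | rfl | rfl | rfl | rfl | rfl | rfl | rfl | rfl | rfl <;> decide

theorem no_monge (T₂ T₃ : EuclideanSpace ℝ (Fin 3) → EuclideanSpace ℝ (Fin 3))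
    (h₂ : Measurable T₂) (h₃ : Measurable T₃) (e₂ : C.μ.map T₂ = C.μ) (e₃ : C.μ.map T₃ = C.μ) :
    kantorovichValue C.μ < ∫⁻ x, coulomb (x, T₂ x, T₃ x) ∂C.μ := by
  have hU := C.meas_U
  have hle : ∀ᵐ x ∂C.μ, C.U x + C.U (T₂ x) + C.U (T₃ x) ≤ coulomb (x, T₂ x, T₃ x) := by
    filter_upwards [C.ae_S, C.ae_S_of_map h₂ e₂, C.ae_S_of_map h₃ e₃] with x a b c
    exact (C.U_le_coulomb a b c).1
  have hint : ∫⁻ x, (C.U x + C.U (T₂ x) + C.U (T₃ x)) ∂C.μ = kantorovichValue C.μ := by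
    rw [lintegral_add_left (by fun_prop), lintegral_add_left hU, ← lintegral_map hU h₂,
      ← lintegral_map hU h₃, e₂, e₃, C.value_eq]
    ring
  rw [← hint]
  refine lt_of_le_of_ne (lintegral_mono_ae hle) fun heq => ?_
  have hae := ae_eq_of_ae_le_of_lintegral_le hle
    (by rw [hint]; exact C.value_lt_top.ne)
    (measurable_coulomb.comp (measurable_id.prodMk (h₂.prodMk h₃))).aemeasurable heq.ge
  have hpat : ∀ᵐ x ∂C.μ, ∃ p ∈ goodList, ∃ a ∈ C.B,
      x = C.F p.1 a ∧ T₂ x = C.F p.2.1 a ∧ T₃ x = C.F p.2.2 a := by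
    filter_upwards [C.ae_S, C.ae_S_of_map h₂ e₂, C.ae_S_of_map h₃ e₃, hae] with x a b c d
    exact (C.U_le_coulomb a b c).2 d
  have hBm := C.compact.measurableSet
  set A := C.B ∩ T₂ ⁻¹' (C.F 1 '' C.B ∪ C.F 2 '' C.B) with hA
  have hAm : MeasurableSet A :=
    hBm.inter (h₂ ((C.meas_image 1 subset_rfl hBm).union (C.meas_image 2 subset_rfl hBm)))
  have main : ∀ G, G ⊆ C.B → MeasurableSet G →
      C.μ (G ∩ A) + 6⁻¹ * C.m G + 6⁻¹ * C.m G = 6⁻¹ * C.m G + 6⁻¹ * C.m G + 6⁻¹ * C.m G := by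
    intro G hG hGm
    have i1 := C.meas_image 1 hG hGm
    have i2 := C.meas_image 2 hG hGm
    have hpt : (fun x => (G ∩ A).indicator (1 : EuclideanSpace ℝ (Fin 3) → ℝ≥0∞) x + (C.F 1 '' G).indicator 1 x
          + (C.F 2 '' G).indicator 1 x) =ᵐ[C.μ]
        fun x => (C.F 1 '' G).indicator (1 : EuclideanSpace ℝ (Fin 3) → ℝ≥0∞) x + (C.F 1 '' G).indicator 1 (T₂ x)
          + (C.F 1 '' G).indicator 1 (T₃ x) := by
      filter_upwards [hpat] with x hx
      obtain ⟨⟨i, j, k⟩, hp, a, ha, rfl, hy, hz⟩ := hx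
      rw [hy, hz]
      have hind : ∀ (l q : Fin 5), (C.F l '' G).indicator (1 : EuclideanSpace ℝ (Fin 3) → ℝ≥0∞) (C.F q a)
          = if q = l ∧ a ∈ G then 1 else 0 := by
        intro l q
        by_cases h : q = l ∧ a ∈ G
        · rw [if_pos h, indicator_of_mem ((C.F_mem_image hG ha).mpr h), Pi.one_apply]
        · rw [if_neg h, indicator_of_notMem fun h' => h ((C.F_mem_image hG ha).mp h')]
      have hG0 : C.F i a ∈ G ↔ i = 0 ∧ a ∈ G := by
        rw [← C.F_mem_image hG ha]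
        simp only [C.F_zero, image_id']
      have hA0 : (G ∩ A).indicator (1 : EuclideanSpace ℝ (Fin 3) → ℝ≥0∞) (C.F i a)
          = if (i = 0 ∧ (j = 1 ∨ j = 2)) ∧ a ∈ G then 1 else 0 := by
        have hiff : C.F i a ∈ G ∩ A ↔ (i = 0 ∧ (j = 1 ∨ j = 2)) ∧ a ∈ G := by
          constructor
          · rintro ⟨g1, -, g3⟩
            obtain ⟨rfl, haG⟩ := hG0.mp g1
            rw [mem_preimage, hy, mem_union, C.F_mem_image subset_rfl ha,
              C.F_mem_image subset_rfl ha] at g3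
            exact ⟨⟨rfl, g3.imp (fun h => h.1) (fun h => h.1)⟩, haG⟩
          · rintro ⟨⟨rfl, g⟩, haG⟩
            refine ⟨hG0.mpr ⟨rfl, haG⟩, by rwa [C.F_zero], ?_⟩
            rw [mem_preimage, hy, mem_union, C.F_mem_image subset_rfl ha,
              C.F_mem_image subset_rfl ha]
            exact g.imp (fun h => ⟨h, ha⟩) (fun h => ⟨h, ha⟩)
        by_cases h : (i = 0 ∧ (j = 1 ∨ j = 2)) ∧ a ∈ G
        · rw [if_pos h, indicator_of_mem (hiff.mpr h), Pi.one_apply]
        · rw [if_neg h, indicator_of_notMem fun h' => h (hiff.mp h')]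
      rw [hA0, hind, hind, hind, hind]
      by_cases haG : a ∈ G
      · simp only [haG, and_true]
        have hc := congrArg (Nat.cast : ℕ → ℝ≥0∞) (pattern_count (i, j, k) hp)
        simp only [Nat.cast_add, Nat.cast_ite, Nat.cast_one, Nat.cast_zero] at hc
        exact hc
      · simp [haG]
    have hI := lintegral_congr_ae hpt
    have hm1 : Measurable ((C.F 1 '' G).indicator (1 : EuclideanSpace ℝ (Fin 3) → ℝ≥0∞)) := measurable_one.indicator i1
    rw [lintegral_add_left (by exact (measurable_one.indicator (hGm.inter hAm)).add hm1),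
      lintegral_add_left (measurable_one.indicator (hGm.inter hAm)),
      lintegral_add_left (by fun_prop), lintegral_add_left hm1, ← lintegral_map hm1 h₂,
      ← lintegral_map hm1 h₃, e₂, e₃] at hI
    simp only [lintegral_indicator_one i1, lintegral_indicator_one i2,
      lintegral_indicator_one (hGm.inter hAm)] at hI
    rw [C.μ_image 1 hG hGm, C.μ_image 2 hG hGm] at hI
    simpa [wt] using hI
  have hfin : ∀ G, 6⁻¹ * C.m G + 6⁻¹ * C.m G ≠ ∞ := fun G =>
    ENNReal.add_ne_top.mpr ⟨ENNReal.mul_ne_top (by simp) (measure_ne_top _ _),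
      ENNReal.mul_ne_top (by simp) (measure_ne_top _ _)⟩
  have main' : ∀ G, G ⊆ C.B → MeasurableSet G → C.μ (G ∩ A) = 6⁻¹ * C.m G := fun G hG hGm => by
    have h := main G hG hGm
    rw [add_assoc, add_assoc (6⁻¹ * C.m G)] at h
    exact (ENNReal.add_left_inj (hfin G)).mp h
  have hA1 : C.μ A = 6⁻¹ * 1 := by
    have := main' C.B subset_rfl hBm
    rwa [inter_eq_right.mpr inter_subset_left, C.m_B] at this
  have hA2 : C.μ A = 6⁻¹ * C.m A := by
    simpa using main' A inter_subset_left hAm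
  have hA3 : C.μ A = 3⁻¹ * C.m A := by
    have := C.μ_image 0 (G := A) inter_subset_left hAm
    simpa [C.F_zero, wt] using this
  have hmA : C.m A = 1 := by
    rw [hA1] at hA2
    exact ((ENNReal.mul_right_inj (by simp) (by simp)).mp hA2).symm
  rw [hA1, hmA, mul_one, mul_one, inv_inj] at hA3
  norm_num at hA3

end Cert

end Vale.Agent.P121
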