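import Mathlib

/-!
Local calculus for the five-cluster counterexample: the Newtonian pair interaction, the exact
second-order inequality, and the branch map through the inverse function theorem.
-/

noncomputable section

open scoped RealInnerProductSpace
open MeasureTheory Metric Filter Topology

namespace Vale.Agent.P121

/-- Three-dimensional Euclidean space. -/
abbrev V := EuclideanSpace ℝ (Fin 3)

/-- the unit vector along the first axis -/
def e0 : V := EuclideanSpace.single 0 1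

lemma norm_e0 : ‖e0‖ = 1 := by simp [e0]

lemma e0_ne : e0 ≠ 0 := by
  intro h
  have := norm_e0
  rw [h, norm_zero] at this
  norm_num at this

lemma e0_apply (i : Fin 3) : e0 i = if i = 0 then 1 else 0 := by
  simp [e0]

lemma inner_e0 (h : V) : ⟪e0, h⟫ = h 0 := by
  simp [e0, EuclideanSpace.inner_single_left]

/-- gradient of `v ↦ 1/‖v‖` -/
def newton (v : V) : V := -((‖v‖ ^ 3)⁻¹) • v

lemma newton_neg (v : V) : newton (-v) = -newton v := by
  simp [newton]

lemma newton_sub_comm (x y : V) : newton (y - x) = -newton (x - y) := by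
  rw [← newton_neg, neg_sub]

lemma newton_smul_e0 {t : ℝ} (ht : 0 < t) : newton (t • e0) = -((t ^ 2)⁻¹) • e0 := by
  rw [newton, norm_smul, norm_e0, Real.norm_eq_abs, abs_of_pos ht, smul_smul]
  congr 1
  field_simp

/-- Exact quadratic lower bound for the reciprocal norm. -/
lemma pair_ineq {v v' : V} (hv : v ≠ 0) (hv' : v' ≠ 0) :
    ‖v‖⁻¹ + ⟪newton v, v' - v⟫ - ‖v' - v‖ ^ 2 / (2 * ‖v‖ ^ 3) ≤ ‖v'‖⁻¹ := by
  have ha : 0 < ‖v‖ := norm_pos_iff.mpr hv
  have hb : 0 < ‖v'‖ := norm_pos_iff.mpr hv'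
  have h1 : ‖v'‖ ^ 2 = ‖v‖ ^ 2 + 2 * ⟪v, v' - v⟫ + ‖v' - v‖ ^ 2 := by
    rw [← norm_add_sq_real, add_sub_cancel]
  have h2 : ⟪newton v, v' - v⟫ = -(‖v‖ ^ 3)⁻¹ * ⟪v, v' - v⟫ := by
    rw [newton, real_inner_smul_left]
  have key : ‖v'‖⁻¹ - (‖v‖⁻¹ + ⟪newton v, v' - v⟫ - ‖v' - v‖ ^ 2 / (2 * ‖v‖ ^ 3))
      = (‖v'‖ - ‖v‖) ^ 2 * (‖v'‖ + 2 * ‖v‖) / (2 * ‖v‖ ^ 3 * ‖v'‖) := by
    rw [h2]
    field_simp
    linear_combination (-‖v'‖) * h1
  have hpos : 0 ≤ (‖v'‖ - ‖v‖) ^ 2 * (‖v'‖ + 2 * ‖v‖) / (2 * ‖v‖ ^ 3 * ‖v'‖) := by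
    positivity
  linarith

lemma pair_ineq' {v v' : V} (hv : (1/2 : ℝ) ≤ ‖v‖) (hv' : v' ≠ 0) :
    ‖v‖⁻¹ + ⟪newton v, v' - v⟫ - 4 * ‖v' - v‖ ^ 2 ≤ ‖v'‖⁻¹ := by
  have hne : v ≠ 0 := by intro h; rw [h, norm_zero] at hv; norm_num at hv
  have h3 : (1/8 : ℝ) ≤ ‖v‖ ^ 3 := by
    calc (1/8 : ℝ) = (1/2) ^ 3 := by norm_num
      _ ≤ _ := pow_le_pow_left₀ (by norm_num) hv 3
  have : ‖v' - v‖ ^ 2 / (2 * ‖v‖ ^ 3) ≤ 4 * ‖v' - v‖ ^ 2 := by
    rw [div_le_iff₀ (by positivity)]
    nlinarith [sq_nonneg ‖v' - v‖]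
  linarith [pair_ineq hne hv']

/-- base points -/
def pY : V := -e0
def pZ : V := e0

/-- linear coefficient of the potential near `pZ` -/
def g3 : V := (-(5/4 : ℝ)) • e0

/-- potential near the origin -/
def uX (x : V) : ℝ := 142 / 100 - 100 * ‖x‖ ^ 2

/-- potential near `pZ` -/
def u3 (z : V) : ℝ := 54 / 100 + ⟪g3, z - pZ⟫ - 100 * ‖z - pZ‖ ^ 2

/-- real Coulomb cost -/
def creal (x y z : V) : ℝ := ‖x - y‖⁻¹ + ‖x - z‖⁻¹ + ‖z - y‖⁻¹

/-- first-order condition in `x` -/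
def eq1 (x y z : V) : V := newton (x - y) + newton (x - z) + (200 : ℝ) • x

/-- first-order condition in `z` -/
def eq3 (x y z : V) : V :=
  newton (z - x) + newton (z - y) - g3 + (200 : ℝ) • (z - pZ)

lemma critical_ineq {x y z x' z' : V} (hxy : (1/2 : ℝ) ≤ ‖x - y‖) (hxz : (1/2 : ℝ) ≤ ‖x - z‖)
    (hzy : (1/2 : ℝ) ≤ ‖z - y‖) (h1 : x' ≠ y) (h2 : x' ≠ z') (h3 : z' ≠ y)
    (e1 : eq1 x y z = 0) (e3 : eq3 x y z = 0) :
    creal x y z - uX x - u3 z + 80 * (‖x' - x‖ ^ 2 + ‖z' - z‖ ^ 2)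
      ≤ creal x' y z' - uX x' - u3 z' := by
  have a1 := pair_ineq' hxy (sub_ne_zero.mpr h1)
  have a2 := pair_ineq' hxz (sub_ne_zero.mpr h2)
  have a3 := pair_ineq' hzy (sub_ne_zero.mpr h3)
  have r1 : x' - y - (x - y) = x' - x := by abel
  have r2 : x' - z' - (x - z) = (x' - x) - (z' - z) := by abel
  have r3 : z' - y - (z - y) = z' - z := by abel
  rw [r1] at a1
  rw [r2] at a2
  rw [r3] at a3
  have q1 : ⟪newton (x - y), x' - x⟫ + ⟪newton (x - z), x' - x⟫ + 200 * ⟪x, x' - x⟫ = 0 := by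
    have := congrArg (fun v => ⟪v, x' - x⟫) e1
    simpa [eq1, inner_add_left, real_inner_smul_left] using this
  have q3 : -⟪newton (x - z), z' - z⟫ + ⟪newton (z - y), z' - z⟫ - ⟪g3, z' - z⟫
      + 200 * ⟪z - pZ, z' - z⟫ = 0 := by
    have := congrArg (fun v => ⟪v, z' - z⟫) e3
    simpa [eq3, newton_sub_comm x z, inner_add_left, inner_sub_left, inner_neg_left,
      real_inner_smul_left] using this
  have n1 : ‖x'‖ ^ 2 = ‖x‖ ^ 2 + 2 * ⟪x, x' - x⟫ + ‖x' - x‖ ^ 2 := by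
    rw [← norm_add_sq_real, add_sub_cancel]
  have n3 : ‖z' - pZ‖ ^ 2 = ‖z - pZ‖ ^ 2 + 2 * ⟪z - pZ, z' - z⟫ + ‖z' - z‖ ^ 2 := by
    rw [← norm_add_sq_real]; congr 2; abel
  have l3 : ⟪g3, z' - pZ⟫ = ⟪g3, z - pZ⟫ + ⟪g3, z' - z⟫ := by
    rw [← inner_add_right]; congr 1; abel
  have par : ‖(x' - x) - (z' - z)‖ ^ 2 ≤ 2 * (‖x' - x‖ ^ 2 + ‖z' - z‖ ^ 2) := by
    have := parallelogram_law_with_norm ℝ (x' - x) (z' - z)
    nlinarith [sq_nonneg ‖(x' - x) + (z' - z)‖]
  rw [inner_sub_right] at a2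
  unfold creal uX u3
  rw [n1, n3, l3]
  nlinarith [sq_nonneg ‖x' - x‖, sq_nonneg ‖z' - z‖]

/-- derivative of `newton` -/
def dnewton (v : V) : V →L[ℝ] V :=
  (-((‖v‖ ^ 3)⁻¹)) • ContinuousLinearMap.id ℝ V
    + ((3 / ‖v‖ ^ 5) • innerSL ℝ v).smulRight v

lemma hasFDerivAt_newton {v : V} (hv : v ≠ 0) : HasFDerivAt newton (dnewton v) v := by
  have ha : 0 < ‖v‖ := norm_pos_iff.mpr hv
  have hn : HasFDerivAt (fun w : V => ‖w‖) (‖v‖⁻¹ • innerSL ℝ v) v := by
    have h := (hasStrictFDerivAt_norm_sq v).hasFDerivAt.sqrt (by positivity)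
    simp only [Real.sqrt_sq (norm_nonneg _)] at h
    refine h.congr_fderiv ?_
    rw [← Nat.cast_smul_eq_nsmul ℝ 2, smul_smul]
    congr 1
    field_simp
    norm_num
  have h0 : HasDerivAt (fun t : ℝ => -((t ^ 3)⁻¹)) (3 / ‖v‖ ^ 4) ‖v‖ := by
    refine (((hasDerivAt_pow 3 ‖v‖).inv (by positivity)).neg).congr_deriv ?_
    field_simp
    norm_num
    ring
  have := (h0.comp_hasFDerivAt v hn).smul (hasFDerivAt_id v)
  refine this.congr_fderiv ?_
  ext w i
  simp [dnewton]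
  field_simp
  exact Or.inl trivial

lemma dnewton_pm_e0 (v : V) (t : ℝ) (ht : 0 < t) (hv : v = t • e0 ∨ v = -(t • e0)) (h : V)
    (i : Fin 3) :
    dnewton v h i = (t ^ 3)⁻¹ * (if i = 0 then 2 else -1) * h i := by
  have hn : ‖t • e0‖ = t := by rw [norm_smul, norm_e0, Real.norm_eq_abs, abs_of_pos ht, mul_one]
  rcases hv with rfl | rfl <;>
  · simp only [dnewton, add_apply, smul_apply, ContinuousLinearMap.id_apply,
      ContinuousLinearMap.smulRight_apply, norm_neg, hn, PiLp.add_apply, PiLp.smul_apply,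
      smul_eq_mul, innerSL_apply_apply, inner_neg_left, real_inner_smul_left, inner_e0,
      PiLp.neg_apply, e0_apply]
    split
    · subst i
      field_simp
      ring
    · simp

/-- first variable, and the two critical-point equations -/
def sys (p : V × V × V) : V × V × V :=
  (p.1, eq1 p.1 p.2.1 p.2.2, eq3 p.1 p.2.1 p.2.2)

/-- base point of the branch -/
def base : V × V × V := (0, pY, pZ)

lemma sys_base : sys base = 0 := by
  have h1 : newton (0 - pY) = -e0 := by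
    simpa [pY] using newton_smul_e0 (t := 1) one_pos
  have h2 : newton (0 - pZ) = e0 := by
    rw [zero_sub, newton_neg]
    simpa [pZ] using congrArg Neg.neg (newton_smul_e0 (t := 1) one_pos)
  have h3 : newton (pZ - 0) = -e0 := by
    simpa [pZ] using newton_smul_e0 (t := 1) one_pos
  have h4 : newton (pZ - pY) = (-(1/4 : ℝ)) • e0 := by
    have : pZ - pY = (2 : ℝ) • e0 := by rw [pZ, pY, two_smul]; abel
    rw [this, newton_smul_e0 two_pos]; norm_num
  simp only [sys, base, eq1, eq3, h1, h2, h3, h4, g3, sub_self, smul_zero, add_zero]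
  simp only [Prod.mk_eq_zero]
  refine ⟨trivial, by abel, ?_⟩
  module

/-- derivative of `sys` at `base` -/
def dsys : (V × V × V) →L[ℝ] (V × V × V) :=
  let p1 := ContinuousLinearMap.fst ℝ V (V × V)
  let p2 := (ContinuousLinearMap.fst ℝ V V).comp (ContinuousLinearMap.snd ℝ V (V × V))
  let p3 := (ContinuousLinearMap.snd ℝ V V).comp (ContinuousLinearMap.snd ℝ V (V × V))
  p1.prod (((dnewton (0 - pY)).comp (p1 - p2) + (dnewton (0 - pZ)).comp (p1 - p3)
      + (200 : ℝ) • p1).prod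
    ((dnewton (pZ - 0)).comp (p3 - p1) + (dnewton (pZ - pY)).comp (p3 - p2)
      + (200 : ℝ) • p3))

lemma pY_ne : pY ≠ 0 := neg_ne_zero.mpr e0_ne

lemma pZ_sub_pY : pZ - pY = (2 : ℝ) • e0 := by rw [pZ, pY, two_smul]; abel

lemma pZ_sub_pY_ne : pZ - pY ≠ 0 := by
  rw [pZ_sub_pY]; exact smul_ne_zero two_ne_zero e0_ne

lemma contDiffAt_newton {v : V} (hv : v ≠ 0) : ContDiffAt ℝ 1 newton v :=
  ((((contDiffAt_norm ℝ hv).pow 3).inv (by positivity)).neg).smul contDiffAt_id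

lemma contDiffAt_newton_comp {f : V × V × V → V} {p : V × V × V} (hf : ContDiffAt ℝ 1 f p)
    (h : f p ≠ 0) : ContDiffAt ℝ 1 (fun q => newton (f q)) p :=
  ContDiffAt.comp (g := newton) p (contDiffAt_newton h) hf

lemma hasFDerivAt_newton_comp {f : V × V × V → V} {f' : (V × V × V) →L[ℝ] V} {p : V × V × V}
    (hf : HasFDerivAt f f' p) (h : f p ≠ 0) :
    HasFDerivAt (fun q => newton (f q)) ((dnewton (f p)).comp f') p :=
  HasFDerivAt.comp (g := newton) p (hasFDerivAt_newton h) hf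

lemma base_ne : (base.1 - base.2.1 ≠ 0) ∧ (base.1 - base.2.2 ≠ 0) ∧ (base.2.2 - base.1 ≠ 0) ∧
    (base.2.2 - base.2.1 ≠ 0) := by
  refine ⟨?_, ?_, ?_, ?_⟩ <;> simp only [base]
  · simp [pY, e0_ne]
  · simp [pZ, e0_ne]
  · simp [pZ, e0_ne]
  · exact pZ_sub_pY_ne

lemma contDiffAt_sys : ContDiffAt ℝ 1 sys base := by
  have c1 : ContDiffAt ℝ 1 (fun p : V × V × V => p.1) base := contDiffAt_fst
  have c2 : ContDiffAt ℝ 1 (fun p : V × V × V => p.2.1) base :=
    contDiffAt_fst.comp base contDiffAt_snd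
  have c3 : ContDiffAt ℝ 1 (fun p : V × V × V => p.2.2) base :=
    contDiffAt_snd.comp base contDiffAt_snd
  obtain ⟨n1, n2, n3, n4⟩ := base_ne
  have q1 := ((contDiffAt_newton_comp (c1.sub c2) n1).add
    (contDiffAt_newton_comp (c1.sub c3) n2)).add (c1.const_smul (200 : ℝ))
  have q3 := (((contDiffAt_newton_comp (c3.sub c1) n3).add
    (contDiffAt_newton_comp (c3.sub c2) n4)).sub (contDiffAt_const (c := g3))).add
    ((c3.sub (contDiffAt_const (c := pZ))).const_smul (200 : ℝ))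
  exact c1.prodMk (q1.prodMk q3)

lemma hasFDerivAt_sys : HasFDerivAt sys dsys base := by
  set p1 := ContinuousLinearMap.fst ℝ V (V × V)
  set p2 := (ContinuousLinearMap.fst ℝ V V).comp (ContinuousLinearMap.snd ℝ V (V × V))
  set p3 := (ContinuousLinearMap.snd ℝ V V).comp (ContinuousLinearMap.snd ℝ V (V × V))
  have c1 : HasFDerivAt (fun p : V × V × V => p.1) p1 base := p1.hasFDerivAt
  have c2 : HasFDerivAt (fun p : V × V × V => p.2.1) p2 base := p2.hasFDerivAt
  have c3 : HasFDerivAt (fun p : V × V × V => p.2.2) p3 base := p3.hasFDerivAt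
  obtain ⟨n1, n2, n3, n4⟩ := base_ne
  have q1 := ((hasFDerivAt_newton_comp (c1.sub c2) n1).add
    (hasFDerivAt_newton_comp (c1.sub c3) n2)).add (c1.const_smul (200 : ℝ))
  have q3 := (((hasFDerivAt_newton_comp (c3.sub c1) n3).add
    (hasFDerivAt_newton_comp (c3.sub c2) n4)).sub_const g3).add
    ((c3.sub_const pZ).const_smul (200 : ℝ))
  exact c1.prodMk (q1.prodMk q3)

lemma dsys_coord {w : V × V × V} {h : V} (hw : dsys w = (h, 0, 0)) (i : Fin 3) :
    w.1 i = h i ∧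
    (if i = 0 then 2 else -1) * (w.1 i - w.2.1 i) + (if i = 0 then 2 else -1) * (w.1 i - w.2.2 i)
      + 200 * w.1 i = 0 ∧
    (if i = 0 then 2 else -1) * (w.2.2 i - w.1 i)
      + (1/8) * (if i = 0 then 2 else -1) * (w.2.2 i - w.2.1 i) + 200 * w.2.2 i = (0 : ℝ) := by
  have a := fun (t : ℝ) (ht : 0 < t) (v : V) (hv : v = t • e0 ∨ v = -(t • e0)) (u : V) =>
    dnewton_pm_e0 v t ht hv u i
  simp only [dsys, ContinuousLinearMap.prod_apply, Prod.mk.injEq, add_apply,
    ContinuousLinearMap.comp_apply, sub_apply, smul_apply, ContinuousLinearMap.coe_fst',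
    ContinuousLinearMap.coe_snd'] at hw
  obtain ⟨w1, w2, w3⟩ := hw
  refine ⟨by rw [w1], ?_, ?_⟩
  · have := congrArg (fun v : V => v i) w2
    simp only [PiLp.add_apply, PiLp.smul_apply, PiLp.zero_apply, smul_eq_mul] at this
    rw [a 1 one_pos (0 - pY) (Or.inl (by simp [pY])),
      a 1 one_pos (0 - pZ) (Or.inr (by simp [pZ]))] at this
    simpa using this
  · have := congrArg (fun v : V => v i) w3
    simp only [PiLp.add_apply, PiLp.smul_apply, PiLp.zero_apply, smul_eq_mul] at this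
    rw [a 1 one_pos (pZ - 0) (Or.inl (by simp [pZ])),
      a 2 two_pos (pZ - pY) (Or.inl pZ_sub_pY)] at this
    norm_num at this ⊢
    linarith

lemma dsys_injective : Function.Injective dsys := by
  rw [injective_iff_map_eq_zero]
  intro w hw
  have key : ∀ i, w.1 i = 0 ∧ w.2.1 i = 0 ∧ w.2.2 i = 0 := by
    intro i
    obtain ⟨a, b, c⟩ := dsys_coord (h := 0) (by rw [hw]; rfl) i
    simp only [PiLp.zero_apply] at a
    rw [a] at b c
    split at b <;> simp_all only [if_true, if_false] <;>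
      exact ⟨trivial, by linarith, by linarith⟩
  ext i
  · exact (key i).1
  · exact (key i).2.1
  · exact (key i).2.2

/-- `dsys` as an equivalence -/
def dsysEquiv : (V × V × V) ≃L[ℝ] (V × V × V) :=
  (LinearEquiv.ofInjectiveEndo (dsys : (V × V × V) →ₗ[ℝ] (V × V × V))
    dsys_injective).toContinuousLinearEquiv

lemma dsysEquiv_coe : (dsysEquiv : (V × V × V) →L[ℝ] (V × V × V)) = dsys := by
  ext w <;> rfl

lemma hasFDerivAt_sys' :
    HasFDerivAt sys (dsysEquiv : (V × V × V) →L[ℝ] (V × V × V)) base := by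
  rw [dsysEquiv_coe]; exact hasFDerivAt_sys

/-- A map that is an immersion at `0` is, on a small ball, injective and pulls null sets back to
null sets. -/
lemma good_map {f : V → V} {f' : V →L[ℝ] V} (hf : ContDiffAt ℝ 1 f 0) (hf' : HasFDerivAt f f' 0)
    (hi : Function.Injective f') :
    ∃ r > 0, Set.InjOn f (closedBall 0 r) ∧
      ∀ N : Set V, volume N = 0 → volume (closedBall 0 r ∩ f ⁻¹' N) = 0 := by
  let e : V ≃L[ℝ] V :=
    (LinearEquiv.ofInjectiveEndo (f' : V →ₗ[ℝ] V) hi).toContinuousLinearEquiv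
  have he : (e : V →L[ℝ] V) = f' := by ext; rfl
  rw [← he] at hf'
  set P := hf.toOpenPartialHomeomorph f hf' one_ne_zero
  have hP : (P : V → V) = f := ContDiffAt.toOpenPartialHomeomorph_coe hf hf' one_ne_zero
  have hg : ContDiffAt ℝ 1 P.symm (f 0) := hf.to_localInverse hf' one_ne_zero
  obtain ⟨U, hU, hdU⟩ : ∃ U ∈ 𝓝 (f 0), DifferentiableOn ℝ P.symm U :=
    ((hg.eventually (by simp)).mono fun y hy => hy.differentiableAt one_ne_zero).exists_mem.imp
      fun U hU => ⟨hU.1, fun y hy => (hU.2 y hy).differentiableWithinAt⟩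
  have h1 : P.source ∩ f ⁻¹' U ∈ 𝓝 (0 : V) :=
    inter_mem (P.open_source.mem_nhds (ContDiffAt.mem_toOpenPartialHomeomorph_source hf hf'
      one_ne_zero)) (hf.continuousAt.preimage_mem_nhds hU)
  obtain ⟨r, hr, hball⟩ := Metric.nhds_basis_closedBall.mem_iff.mp h1
  refine ⟨r, hr, ?_, ?_⟩
  · rw [← hP]
    exact P.injOn.mono fun x hx => (hball hx).1
  · intro N hN
    have hsub : closedBall 0 r ∩ f ⁻¹' N ⊆ P.symm '' (N ∩ U) := by
      intro x hx
      refine ⟨f x, ⟨hx.2, (hball hx.1).2⟩, ?_⟩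
      have := P.left_inv (hball hx.1).1
      rwa [hP] at this
    refine measure_mono_null hsub ?_
    exact addHaar_image_eq_zero_of_differentiableOn_of_addHaar_eq_zero volume
      (hdU.mono Set.inter_subset_right) (measure_mono_null Set.inter_subset_left hN)

/-- the branch `x ↦ (x, T₂ x, T₃ x)` -/
def branch (x : V) : V × V × V :=
  contDiffAt_sys.localInverse hasFDerivAt_sys' one_ne_zero (x, 0, 0)

lemma branch_zero : branch 0 = base := by
  rw [branch]
  have := contDiffAt_sys.localInverse_apply_image hasFDerivAt_sys' one_ne_zero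
  rw [sys_base] at this
  exact this

lemma branch_sys : ∀ᶠ x in 𝓝 (0 : V), sys (branch x) = (x, 0, 0) := by
  have hs := contDiffAt_sys.hasStrictFDerivAt' hasFDerivAt_sys' one_ne_zero
  have h := hs.eventually_right_inverse
  rw [sys_base] at h
  have hc : Tendsto (fun x : V => ((x, 0, 0) : V × V × V)) (𝓝 0) (𝓝 0) := by
    have : Continuous (fun x : V => ((x, 0, 0) : V × V × V)) := by fun_prop
    exact this.tendsto' _ _ rfl
  exact hc.eventually h

/-- second component of the branch -/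
def T2 (x : V) : V := (branch x).2.1

/-- third component of the branch -/
def T3 (x : V) : V := (branch x).2.2

lemma branch_eqs : ∀ᶠ x in 𝓝 (0 : V), eq1 x (T2 x) (T3 x) = 0 ∧ eq3 x (T2 x) (T3 x) = 0 := by
  filter_upwards [branch_sys] with x hx
  simp only [sys, Prod.mk.injEq] at hx
  obtain ⟨a, b, c⟩ := hx
  rw [a] at b c
  exact ⟨b, c⟩

/-- derivative of the branch -/
def dbranch : V →L[ℝ] V × V × V :=
  (dsysEquiv.symm : (V × V × V) →L[ℝ] (V × V × V)).comp (ContinuousLinearMap.inl ℝ V (V × V))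

lemma contDiffAt_branch : ContDiffAt ℝ 1 branch 0 := by
  have h := contDiffAt_sys.to_localInverse hasFDerivAt_sys' one_ne_zero
  rw [sys_base] at h
  exact ContDiffAt.comp (f := fun x : V => ((x, 0, 0) : V × V × V)) 0 h
    (contDiffAt_id.prodMk contDiffAt_const)

lemma hasFDerivAt_branch : HasFDerivAt branch dbranch 0 := by
  have h := (contDiffAt_sys.hasStrictFDerivAt' hasFDerivAt_sys'
    one_ne_zero).to_localInverse.hasFDerivAt
  rw [sys_base] at h
  exact HasFDerivAt.comp (f := ⇑(ContinuousLinearMap.inl ℝ V (V × V))) 0 h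
    (ContinuousLinearMap.inl ℝ V (V × V)).hasFDerivAt

lemma dbranch_eq (h : V) : dsys (dbranch h) = (h, 0, 0) := by
  rw [← dsysEquiv_coe]
  exact dsysEquiv.apply_symm_apply _

lemma T2_good : ∃ r > 0, Set.InjOn T2 (closedBall 0 r) ∧
    ∀ N : Set V, volume N = 0 → volume (closedBall 0 r ∩ T2 ⁻¹' N) = 0 := by
  set p2 := (ContinuousLinearMap.fst ℝ V V).comp (ContinuousLinearMap.snd ℝ V (V × V))
  refine good_map (f' := p2.comp dbranch) (p2.contDiff.contDiffAt.comp 0 contDiffAt_branch)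
    (p2.hasFDerivAt.comp 0 hasFDerivAt_branch) ?_
  rw [injective_iff_map_eq_zero]
  intro h hh
  ext i
  obtain ⟨a, b, c⟩ := dsys_coord (dbranch_eq h) i
  have h2 : (dbranch h).2.1 i = 0 := by
    have : (dbranch h).2.1 = 0 := hh
    rw [this]; rfl
  rw [a, h2] at b c
  simp only [PiLp.zero_apply]
  split at b <;> simp_all only [if_true, if_false] <;> linarith

lemma T3_good : ∃ r > 0, Set.InjOn T3 (closedBall 0 r) ∧
    ∀ N : Set V, volume N = 0 → volume (closedBall 0 r ∩ T3 ⁻¹' N) = 0 := by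
  set p3 := (ContinuousLinearMap.snd ℝ V V).comp (ContinuousLinearMap.snd ℝ V (V × V))
  refine good_map (f' := p3.comp dbranch) (p3.contDiff.contDiffAt.comp 0 contDiffAt_branch)
    (p3.hasFDerivAt.comp 0 hasFDerivAt_branch) ?_
  rw [injective_iff_map_eq_zero]
  intro h hh
  ext i
  obtain ⟨a, b, c⟩ := dsys_coord (dbranch_eq h) i
  have h2 : (dbranch h).2.2 i = 0 := by
    have : (dbranch h).2.2 = 0 := hh
    rw [this]; rfl
  rw [a, h2] at b c
  simp only [PiLp.zero_apply]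
  split at b <;> simp_all only [if_true, if_false] <;> linarith

end Vale.Agent.P121
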