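import Mathlib
import Vale.Agent.P121.Calc
import Vale.Agent.P121.Abstract

/-!
The concrete five-cluster certificate.
-/

noncomputable section

open MeasureTheory Metric Filter Topology Set
open scoped RealInnerProductSpace ENNReal

namespace Vale.Agent.P121

/-- rotation by a right angle about the third axis, as a linear equivalence -/
def rotLin : V ≃ₗ[ℝ] V where
  toFun v := !₂[-(v 1), v 0, v 2]
  invFun v := !₂[v 1, -(v 0), v 2]
  map_add' x y := by ext i; fin_cases i <;> simp <;> ring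
  map_smul' c x := by ext i; fin_cases i <;> simp
  left_inv v := by ext i; fin_cases i <;> simp
  right_inv v := by ext i; fin_cases i <;> simp

/-- rotation by a right angle about the third axis -/
def rot : V ≃ₗᵢ[ℝ] V where
  toLinearEquiv := rotLin
  norm_map' v := by
    simp [rotLin, EuclideanSpace.norm_eq, Fin.sum_univ_three]
    ring_nf

lemma rot_apply (v : V) (i : Fin 3) : rot v i = ![-(v 1), v 0, v 2] i := rfl

/-- centres of the clusters -/
def P : Fin 5 → V := ![0, pY, pZ, rot pY, rot pZ]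

/-- squared distances of the centres -/
def sqd : Fin 5 → Fin 5 → ℕ :=
  ![![0,1,1,1,1], ![1,0,4,2,2], ![1,4,0,2,2], ![1,2,2,0,4], ![1,2,2,4,0]]

lemma dist_P (i j : Fin 5) : dist (P i) (P j) ^ 2 = (sqd i j : ℝ) := by
  rw [EuclideanSpace.dist_eq, Real.sq_sqrt (by positivity), Fin.sum_univ_three]
  fin_cases i <;> fin_cases j <;>
    simp [P, sqd, rot_apply, pY, pZ, e0_apply, Real.dist_eq] <;> norm_num

lemma dist_P_one_le {i j : Fin 5} (h : i ≠ j) : 1 ≤ dist (P i) (P j) := by
  have h1 : ∀ i j : Fin 5, i ≠ j → 1 ≤ sqd i j := by decide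
  have := dist_P i j
  have h2 : (1 : ℝ) ≤ (sqd i j : ℝ) := by exact_mod_cast h1 i j h
  nlinarith [dist_nonneg (x := P i) (y := P j)]

/-- lower bounds (in thousandths) for the pair interactions -/
def low (i j : Fin 5) : ℕ :=
  if sqd i j = 0 then 5000 else if sqd i j = 1 then 990 else if sqd i j = 2 then 700 else 490

/-- upper bounds (in thousandths) for the potentials -/
def up : Fin 5 → ℕ := ![1430, 550, 550, 550, 550]

lemma gap_table : ∀ i j k : Fin 5, (i, j, k) ∈ goodList ∨
    up i + up j + up k < low i j + low i k + low j k := by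
  decide +kernel

lemma low_le {i j : Fin 5} {x y : V} (hx : dist x (P i) ≤ 1/1000) (hy : dist y (P j) ≤ 1/1000) :
    ENNReal.ofReal ((low i j : ℝ) / 1000) ≤ (edist x y)⁻¹ := by
  have hD : dist x y ≤ dist (P i) (P j) + 2/1000 := by
    have := dist_triangle4 x (P i) (P j) y
    rw [dist_comm (P j) y] at this
    linarith
  have hl : (0 : ℝ) < (low i j : ℝ) := by
    unfold low; split_ifs <;> norm_num
  have hcases : ∀ i j : Fin 5, sqd i j = 0 ∨ sqd i j = 1 ∨ sqd i j = 2 ∨ sqd i j = 4 := by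
    decide
  have hbound : dist x y ≤ 1000 / (low i j : ℝ) := by
    have h := dist_P i j
    have h0 := dist_nonneg (x := P i) (y := P j)
    rw [le_div_iff₀ hl]
    rcases hcases i j with e | e | e | e <;> rw [e] at h <;> unfold low <;> rw [e]
    · have : dist (P i) (P j) ≤ 0 := by push_cast at h; nlinarith
      norm_num; linarith
    · have : dist (P i) (P j) ≤ 1 := by push_cast at h; nlinarith
      norm_num; linarith
    · have : dist (P i) (P j) ≤ 1415/1000 := by push_cast at h; nlinarith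
      norm_num; linarith
    · have : dist (P i) (P j) ≤ 2 := by push_cast at h; nlinarith
      norm_num; linarith
  rw [edist_dist, ← ENNReal.inv_le_inv, inv_inv]
  calc ENNReal.ofReal (dist x y) ≤ ENNReal.ofReal (1000 / (low i j : ℝ)) :=
        ENNReal.ofReal_le_ofReal hbound
    _ = (ENNReal.ofReal ((low i j : ℝ) / 1000))⁻¹ := by
        rw [← ENNReal.ofReal_inv_of_pos (by positivity), inv_div]

lemma coulomb_swap12 (a b c : V) : coulomb (b, a, c) = coulomb (a, b, c) := by
  simp only [coulomb, edist_comm b a]; ring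

lemma coulomb_swap23 (a b c : V) : coulomb (a, c, b) = coulomb (a, b, c) := by
  simp only [coulomb, edist_comm c b]; ring

lemma coulomb_rot (a b c : V) : coulomb (rot a, rot b, rot c) = coulomb (a, b, c) := by
  simp only [coulomb, rot.edist_map]

lemma coulomb_eq_creal {x y z : V} (h1 : x ≠ y) (h2 : x ≠ z) (h3 : z ≠ y) :
    coulomb (x, y, z) = ENNReal.ofReal (creal x y z) := by
  have a : 0 < ‖x - y‖ := norm_pos_iff.mpr (sub_ne_zero.mpr h1)
  have b : 0 < ‖x - z‖ := norm_pos_iff.mpr (sub_ne_zero.mpr h2)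
  have c : 0 < ‖z - y‖ := norm_pos_iff.mpr (sub_ne_zero.mpr h3)
  rw [creal, ENNReal.ofReal_add (by positivity) (by positivity),
    ENNReal.ofReal_add (by positivity) (by positivity), ENNReal.ofReal_inv_of_pos a,
    ENNReal.ofReal_inv_of_pos b, ENNReal.ofReal_inv_of_pos c, coulomb, edist_comm y z]
  simp only [edist_dist, dist_eq_norm]

/-- potential on the second branch component -/
def v2 (x : V) : ℝ := creal x (T2 x) (T3 x) - uX x - u3 (T3 x)

/-- potential on the third branch component -/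
def v3 (x : V) : ℝ := u3 (T3 x)

/-- the five maps -/
def Fm : Fin 5 → V → V :=
  ![fun x => x, T2, T3, fun x => rot (T2 (rot.symm x)), fun x => rot (T3 (rot.symm x))]

/-- the five potentials -/
def Wm : Fin 5 → V → ℝ :=
  ![uX, v2, v3, fun x => v2 (rot.symm x), fun x => v3 (rot.symm x)]

lemma T2_zero : T2 0 = pY := by simp [T2, branch_zero, base]
lemma T3_zero : T3 0 = pZ := by simp [T3, branch_zero, base]

lemma creal_base : creal 0 pY pZ = 5/2 := by
  rw [creal, pZ_sub_pY, norm_smul, zero_sub, zero_sub, norm_neg, norm_neg]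
  simp [pY, pZ, norm_e0]
  norm_num

/-- the properties of the radius needed for the construction -/
structure Radius (r : ℝ) : Prop where
  pos : 0 < r
  small : r ≤ 1/1000
  eqs : ∀ x ∈ closedBall (0 : V) r, eq1 x (T2 x) (T3 x) = 0 ∧ eq3 x (T2 x) (T3 x) = 0
  cont2 : ContinuousOn T2 (closedBall (0 : V) r)
  cont3 : ContinuousOn T3 (closedBall (0 : V) r)
  near2 : ∀ x ∈ closedBall (0 : V) r, dist (T2 x) pY ≤ 1/1000
  near3 : ∀ x ∈ closedBall (0 : V) r, dist (T3 x) pZ ≤ 1/1000
  val2 : ∀ x ∈ closedBall (0 : V) r, 1/10 ≤ v2 x ∧ v2 x ≤ 55/100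
  val3 : ∀ x ∈ closedBall (0 : V) r, 1/10 ≤ v3 x ∧ v3 x ≤ 55/100
  inj2 : InjOn T2 (closedBall (0 : V) r)
  inj3 : InjOn T3 (closedBall (0 : V) r)
  null2 : ∀ N : Set V, volume N = 0 → volume (closedBall 0 r ∩ T2 ⁻¹' N) = 0
  null3 : ∀ N : Set V, volume N = 0 → volume (closedBall 0 r ∩ T3 ⁻¹' N) = 0

lemma exists_radius : ∃ r, Radius r := by
  obtain ⟨r2, hr2, i2, n2⟩ := T2_good
  obtain ⟨r3, hr3, i3, n3⟩ := T3_good
  have c2 : ContinuousAt T2 0 := contDiffAt_branch.continuousAt.snd.fst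
  have c3 : ContinuousAt T3 0 := contDiffAt_branch.continuousAt.snd.snd
  have hc : ∀ᶠ x in 𝓝 (0 : V), ContinuousAt T2 x ∧ ContinuousAt T3 x :=
    (contDiffAt_branch.eventually (by simp)).mono fun x hx =>
      ⟨hx.continuousAt.snd.fst, hx.continuousAt.snd.snd⟩
  have d2 : ∀ᶠ x in 𝓝 (0 : V), dist (T2 x) pY ≤ 1/1000 := by
    have := c2.tendsto
    rw [T2_zero] at this
    exact (this.eventually (closedBall_mem_nhds pY (by norm_num : (0 : ℝ) < 1/1000)))
  have d3 : ∀ᶠ x in 𝓝 (0 : V), dist (T3 x) pZ ≤ 1/1000 := by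
    have := c3.tendsto
    rw [T3_zero] at this
    exact (this.eventually (closedBall_mem_nhds pZ (by norm_num : (0 : ℝ) < 1/1000)))
  have hne1 : ‖(0 : V) - T2 0‖ ≠ 0 := by rw [T2_zero]; simp [pY, norm_e0]
  have hne2 : ‖(0 : V) - T3 0‖ ≠ 0 := by rw [T3_zero]; simp [pZ, norm_e0]
  have hne3 : ‖T3 0 - T2 0‖ ≠ 0 := by
    rw [T2_zero, T3_zero, pZ_sub_pY, norm_smul, norm_e0]; norm_num
  have hu : Continuous u3 := by unfold u3; fun_prop
  have hx : Continuous uX := by unfold uX; fun_prop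
  have cv3 : ContinuousAt v3 0 := hu.continuousAt.comp c3
  have cv2 : ContinuousAt v2 0 :=
    ((((continuousAt_id.sub c2).norm.inv₀ hne1).add ((continuousAt_id.sub c3).norm.inv₀ hne2)).add
      ((c3.sub c2).norm.inv₀ hne3)).sub hx.continuousAt |>.sub cv3
  have v3z : v3 0 = 54/100 := by simp [v3, T3_zero, u3]
  have v2z : v2 0 = 54/100 := by
    rw [v2, T2_zero, T3_zero, creal_base]; simp [uX, u3]; norm_num
  have b3 : ∀ᶠ x in 𝓝 (0 : V), 1/10 ≤ v3 x ∧ v3 x ≤ 55/100 :=
    cv3.tendsto.eventually (Icc_mem_nhds (by rw [v3z]; norm_num) (by rw [v3z]; norm_num))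
  have b2 : ∀ᶠ x in 𝓝 (0 : V), 1/10 ≤ v2 x ∧ v2 x ≤ 55/100 :=
    cv2.tendsto.eventually (Icc_mem_nhds (by rw [v2z]; norm_num) (by rw [v2z]; norm_num))
  obtain ⟨r, hr, hball⟩ := Metric.nhds_basis_closedBall.mem_iff.mp
    (branch_eqs.and (hc.and (d2.and (d3.and (b2.and b3)))))
  set ρ := min (min r (1/1000)) (min r2 r3) with hρ
  have hsub : closedBall (0 : V) ρ ⊆ closedBall 0 r :=
    closedBall_subset_closedBall ((min_le_left _ _).trans (min_le_left _ _))
  have hsub2 : closedBall (0 : V) ρ ⊆ closedBall 0 r2 :=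
    closedBall_subset_closedBall ((min_le_right _ _).trans (min_le_left _ _))
  have hsub3 : closedBall (0 : V) ρ ⊆ closedBall 0 r3 :=
    closedBall_subset_closedBall ((min_le_right _ _).trans (min_le_right _ _))
  exact ⟨ρ, {
    pos := lt_min (lt_min hr (by norm_num)) (lt_min hr2 hr3)
    small := (min_le_left _ _).trans (min_le_right _ _)
    eqs := fun x h => (hball (hsub h)).1
    cont2 := fun x h => (hball (hsub h)).2.1.1.continuousWithinAt
    cont3 := fun x h => (hball (hsub h)).2.1.2.continuousWithinAt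
    near2 := fun x h => (hball (hsub h)).2.2.1
    near3 := fun x h => (hball (hsub h)).2.2.2.1
    val2 := fun x h => (hball (hsub h)).2.2.2.2.1
    val3 := fun x h => (hball (hsub h)).2.2.2.2.2
    inj2 := i2.mono hsub2
    inj3 := i3.mono hsub3
    null2 := fun N hN => measure_mono_null (inter_subset_inter_left _ hsub2) (n2 N hN)
    null3 := fun N hN => measure_mono_null (inter_subset_inter_left _ hsub3) (n3 N hN) }⟩

namespace Radius

variable {r : ℝ} (R : Radius r)
include R

omit R in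
lemma rot_mem {x : V} (h : x ∈ closedBall (0 : V) r) : rot.symm x ∈ closedBall (0 : V) r := by
  simpa [mem_closedBall_zero_iff] using h

omit R in
lemma uX_rot (x : V) : uX (rot.symm x) = uX x := by simp [uX]

lemma near (i : Fin 5) {a : V} (ha : a ∈ closedBall (0 : V) r) :
    dist (Fm i a) (P i) ≤ 1/1000 := by
  fin_cases i
  · show dist a 0 ≤ 1/1000
    exact (mem_closedBall.mp ha).trans R.small
  · exact R.near2 a ha
  · exact R.near3 a ha
  · show dist (rot (T2 (rot.symm a))) (rot pY) ≤ 1/1000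
    rw [rot.dist_map]; exact R.near2 _ (rot_mem ha)
  · show dist (rot (T3 (rot.symm a))) (rot pZ) ≤ 1/1000
    rw [rot.dist_map]; exact R.near3 _ (rot_mem ha)

lemma uX_bds {a : V} (ha : a ∈ closedBall (0 : V) r) : 1 ≤ uX a ∧ uX a ≤ 143/100 := by
  have h1 : ‖a‖ ≤ 1/1000 := (mem_closedBall_zero_iff.mp ha).trans R.small
  have h2 : 0 ≤ ‖a‖ := norm_nonneg a
  unfold uX
  constructor <;> nlinarith

lemma W_bds (i : Fin 5) {a : V} (ha : a ∈ closedBall (0 : V) r) :
    0 ≤ Wm i a ∧ Wm i a ≤ (up i : ℝ) / 1000 := by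
  have hx := R.uX_bds ha
  have h2 := R.val2 a ha
  have h3 := R.val3 a ha
  have h2' := R.val2 _ (rot_mem ha)
  have h3' := R.val3 _ (rot_mem ha)
  fin_cases i <;> simp [Wm, up] <;> constructor <;> linarith

lemma sep {i j : Fin 5} {a b : V} (ha : a ∈ closedBall (0 : V) r) (hb : b ∈ closedBall (0 : V) r)
    (hij : i ≠ j) : Fm i a ≠ Fm j b := by
  intro h
  have h1 := R.near i ha
  have h2 := R.near j hb
  rw [← h] at h2
  have := dist_triangle_left (P i) (P j) (Fm i a)
  linarith [dist_P_one_le hij]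

lemma local_ineq {a b c : V} (ha : a ∈ closedBall (0 : V) r) (hb : b ∈ closedBall (0 : V) r)
    (hc : c ∈ closedBall (0 : V) r) :
    ENNReal.ofReal (uX a) + ENNReal.ofReal (v2 b) + ENNReal.ofReal (v3 c)
      ≤ coulomb (a, T2 b, T3 c) ∧
    (ENNReal.ofReal (uX a) + ENNReal.ofReal (v2 b) + ENNReal.ofReal (v3 c)
      = coulomb (a, T2 b, T3 c) → a = b ∧ b = c) := by
  have hb0 : dist b 0 ≤ 1/1000 := (mem_closedBall.mp hb).trans R.small
  have d1 : dist (0 : V) pY = 1 := by simp [pY, norm_e0]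
  have d2 : dist (0 : V) pZ = 1 := by simp [pZ, norm_e0]
  have d3 : dist pZ pY = 2 := by
    rw [dist_eq_norm, pZ_sub_pY, norm_smul, norm_e0]; norm_num
  have hb2 := R.near2 b hb
  have hb3 := R.near3 b hb
  have g1 : (1/2 : ℝ) ≤ ‖b - T2 b‖ := by
    rw [← dist_eq_norm]
    have := dist_triangle4 (0 : V) b (T2 b) pY
    rw [dist_comm (0 : V) b] at this
    linarith
  have g2 : (1/2 : ℝ) ≤ ‖b - T3 b‖ := by
    rw [← dist_eq_norm]
    have := dist_triangle4 (0 : V) b (T3 b) pZ
    rw [dist_comm (0 : V) b] at this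
    linarith
  have g3 : (1/2 : ℝ) ≤ ‖T3 b - T2 b‖ := by
    rw [← dist_eq_norm]
    have := dist_triangle4 pZ (T3 b) (T2 b) pY
    rw [dist_comm pZ (T3 b)] at this
    linarith
  have n1 : a ≠ T2 b := R.sep (i := 0) (j := 1) ha hb (by decide)
  have n2 : a ≠ T3 c := R.sep (i := 0) (j := 2) ha hc (by decide)
  have n3 : T3 c ≠ T2 b := R.sep (i := 2) (j := 1) hc hb (by decide)
  obtain ⟨e1, e3⟩ := R.eqs b hb
  have key := critical_ineq g1 g2 g3 n1 n2 n3 e1 e3
  have p1 : 0 ≤ uX a := zero_le_one.trans (R.uX_bds ha).1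
  have p2 : 0 ≤ v2 b := le_trans (by norm_num) (R.val2 b hb).1
  have p3 : 0 ≤ v3 c := le_trans (by norm_num) (R.val3 c hc).1
  rw [coulomb_eq_creal n1 n2 n3, ← ENNReal.ofReal_add p1 p2, ← ENNReal.ofReal_add (by linarith) p3]
  have main : uX a + v2 b + v3 c + 80 * (‖a - b‖ ^ 2 + ‖T3 c - T3 b‖ ^ 2)
      ≤ creal a (T2 b) (T3 c) := by
    simp only [v2, v3] at *
    linarith
  refine ⟨ENNReal.ofReal_le_ofReal (by nlinarith), fun h => ?_⟩
  have h' : uX a + v2 b + v3 c = creal a (T2 b) (T3 c) := by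
    have hc0 : 0 ≤ creal a (T2 b) (T3 c) := by unfold creal; positivity
    exact (ENNReal.ofReal_eq_ofReal_iff (by positivity) hc0).mp h
  have z1 : ‖a - b‖ ^ 2 = 0 := by nlinarith [sq_nonneg ‖T3 c - T3 b‖, sq_nonneg ‖a - b‖]
  have z2 : ‖T3 c - T3 b‖ ^ 2 = 0 := by nlinarith [sq_nonneg ‖T3 c - T3 b‖, sq_nonneg ‖a - b‖]
  have q1 : a = b := sub_eq_zero.mp (norm_eq_zero.mp (pow_eq_zero_iff two_ne_zero |>.mp z1))
  have q2 : T3 c = T3 b := sub_eq_zero.mp (norm_eq_zero.mp (pow_eq_zero_iff two_ne_zero |>.mp z2))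
  exact ⟨q1, (R.inj3 hc hb q2).symm⟩

lemma local_exact {a : V} (ha : a ∈ closedBall (0 : V) r) :
    ENNReal.ofReal (uX a) + ENNReal.ofReal (v2 a) + ENNReal.ofReal (v3 a)
      = coulomb (a, T2 a, T3 a) := by
  have n1 : a ≠ T2 a := R.sep (i := 0) (j := 1) ha ha (by decide)
  have n2 : a ≠ T3 a := R.sep (i := 0) (j := 2) ha ha (by decide)
  have n3 : T3 a ≠ T2 a := R.sep (i := 2) (j := 1) ha ha (by decide)
  have p1 : 0 ≤ uX a := zero_le_one.trans (R.uX_bds ha).1
  have p2 : 0 ≤ v2 a := le_trans (by norm_num) (R.val2 a ha).1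
  have p3 : 0 ≤ v3 a := le_trans (by norm_num) (R.val3 a ha).1
  rw [coulomb_eq_creal n1 n2 n3, ← ENNReal.ofReal_add p1 p2, ← ENNReal.ofReal_add (by linarith) p3]
  congr 1
  simp only [v2, v3]; ring

omit R in
/-- a pattern satisfies the inequality, with equality only on the diagonal, and is exact there -/
def Pat (r : ℝ) (i j k : Fin 5) : Prop :=
  (∀ a ∈ closedBall (0 : V) r, ∀ b ∈ closedBall (0 : V) r, ∀ c ∈ closedBall (0 : V) r,
    ENNReal.ofReal (Wm i a) + ENNReal.ofReal (Wm j b) + ENNReal.ofReal (Wm k c)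
      ≤ coulomb (Fm i a, Fm j b, Fm k c) ∧
    (ENNReal.ofReal (Wm i a) + ENNReal.ofReal (Wm j b) + ENNReal.ofReal (Wm k c)
      = coulomb (Fm i a, Fm j b, Fm k c) → a = b ∧ b = c)) ∧
  (∀ a ∈ closedBall (0 : V) r,
    ENNReal.ofReal (Wm i a) + ENNReal.ofReal (Wm j a) + ENNReal.ofReal (Wm k a)
      = coulomb (Fm i a, Fm j a, Fm k a))

omit R in
lemma Pat.swap12 {i j k : Fin 5} (h : Pat r i j k) : Pat r j i k := by
  constructor
  · intro b hb a ha c hc
    rw [coulomb_swap12, add_comm (ENNReal.ofReal (Wm j b))]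
    refine ⟨(h.1 a ha b hb c hc).1, fun e => ?_⟩
    obtain ⟨p, q⟩ := (h.1 a ha b hb c hc).2 e
    exact ⟨p.symm, p.trans q⟩
  · intro a ha
    rw [coulomb_swap12, add_comm (ENNReal.ofReal (Wm j a))]
    exact h.2 a ha

omit R in
lemma Pat.swap23 {i j k : Fin 5} (h : Pat r i j k) : Pat r i k j := by
  constructor
  · intro a ha c hc b hb
    rw [coulomb_swap23, add_right_comm]
    refine ⟨(h.1 a ha b hb c hc).1, fun e => ?_⟩
    obtain ⟨p, q⟩ := (h.1 a ha b hb c hc).2 e
    exact ⟨p.trans q, q.symm⟩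
  · intro a ha
    rw [coulomb_swap23, add_right_comm]
    exact h.2 a ha

lemma pat_Y : Pat r 0 1 2 :=
  ⟨fun _ ha _ hb _ hc => R.local_ineq ha hb hc, fun _ ha => R.local_exact ha⟩

lemma pat_Z : Pat r 0 3 4 := by
  have e : ∀ a b c : V, coulomb (a, rot (T2 (rot.symm b)), rot (T3 (rot.symm c)))
      = coulomb (rot.symm a, T2 (rot.symm b), T3 (rot.symm c)) := by
    intro a b c
    rw [← coulomb_rot (rot.symm a), rot.apply_symm_apply]
  constructor
  · intro a ha b hb c hc
    show ENNReal.ofReal (uX a) + ENNReal.ofReal (v2 (rot.symm b))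
        + ENNReal.ofReal (v3 (rot.symm c)) ≤ coulomb (a, rot (T2 (rot.symm b)), rot (T3 (rot.symm c)))
      ∧ (ENNReal.ofReal (uX a) + ENNReal.ofReal (v2 (rot.symm b)) + ENNReal.ofReal (v3 (rot.symm c))
        = coulomb (a, rot (T2 (rot.symm b)), rot (T3 (rot.symm c))) → a = b ∧ b = c)
    rw [e, ← uX_rot a]
    obtain ⟨p, q⟩ := R.local_ineq (rot_mem ha) (rot_mem hb) (rot_mem hc)
    exact ⟨p, fun h => ⟨rot.symm.injective (q h).1, rot.symm.injective (q h).2⟩⟩
  · intro a ha
    show ENNReal.ofReal (uX a) + ENNReal.ofReal (v2 (rot.symm a))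
        + ENNReal.ofReal (v3 (rot.symm a)) = coulomb (a, rot (T2 (rot.symm a)), rot (T3 (rot.symm a)))
    rw [e, ← uX_rot a]
    exact R.local_exact (rot_mem ha)

lemma pat_good : ∀ p ∈ goodList, Pat r p.1 p.2.1 p.2.2 := by
  intro p hp
  have y := R.pat_Y
  have z := R.pat_Z
  simp only [goodList, List.mem_cons, List.not_mem_nil, or_false] at hp
  rcases hp with rfl | rfl | rfl | rfl | rfl | rfl | rfl | rfl | rfl | rfl | rfl | rfl
  · exact y
  · exact y.swap23
  · exact y.swap12
  · exact y.swap12.swap23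
  · exact y.swap23.swap12
  · exact y.swap23.swap12.swap23
  · exact z
  · exact z.swap23
  · exact z.swap12
  · exact z.swap12.swap23
  · exact z.swap23.swap12
  · exact z.swap23.swap12.swap23

lemma all_ineq (i j k : Fin 5) {a b c : V} (ha : a ∈ closedBall (0 : V) r)
    (hb : b ∈ closedBall (0 : V) r) (hc : c ∈ closedBall (0 : V) r) :
    ENNReal.ofReal (Wm i a) + ENNReal.ofReal (Wm j b) + ENNReal.ofReal (Wm k c)
      ≤ coulomb (Fm i a, Fm j b, Fm k c) ∧
    (ENNReal.ofReal (Wm i a) + ENNReal.ofReal (Wm j b) + ENNReal.ofReal (Wm k c)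
      = coulomb (Fm i a, Fm j b, Fm k c) → (i, j, k) ∈ goodList ∧ a = b ∧ b = c) := by
  rcases gap_table i j k with hg | hlt
  · obtain ⟨p, q⟩ := (R.pat_good _ hg).1 a ha b hb c hc
    exact ⟨p, fun h => ⟨hg, q h⟩⟩
  · obtain ⟨wi, wi'⟩ := R.W_bds i ha
    obtain ⟨wj, wj'⟩ := R.W_bds j hb
    obtain ⟨wk, wk'⟩ := R.W_bds k hc
    have hlt' : (up i : ℝ) + up j + up k < (low i j : ℝ) + low i k + low j k := by
      exact_mod_cast hlt
    have hs : ENNReal.ofReal (Wm i a) + ENNReal.ofReal (Wm j b) + ENNReal.ofReal (Wm k c)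
        < coulomb (Fm i a, Fm j b, Fm k c) := by
      rw [← ENNReal.ofReal_add wi wj, ← ENNReal.ofReal_add (by linarith) wk]
      refine lt_of_lt_of_le ?_ (add_le_add (add_le_add (low_le (R.near i ha) (R.near j hb))
        (low_le (R.near i ha) (R.near k hc))) (low_le (R.near j hb) (R.near k hc)))
      rw [← ENNReal.ofReal_add (by positivity) (by positivity),
        ← ENNReal.ofReal_add (by positivity) (by positivity)]
      rw [ENNReal.ofReal_lt_ofReal_iff_of_nonneg (by linarith)]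
      linarith
    exact ⟨hs.le, fun h => absurd h hs.ne⟩

omit R in
lemma null_rot {T : V → V} (h : ∀ N : Set V, volume N = 0 → volume (closedBall 0 r ∩ T ⁻¹' N) = 0)
    (N : Set V) (hN : volume N = 0) :
    volume (closedBall 0 r ∩ (fun x => rot (T (rot.symm x))) ⁻¹' N) = 0 := by
  have hp := rot.symm.measurePreserving
  have he : MeasurableEmbedding (⇑rot.symm) := rot.symm.toHomeomorph.measurableEmbedding
  have h' : volume (⇑rot ⁻¹' N) = 0 := by
    rw [rot.measurePreserving.measure_preimage_emb rot.toHomeomorph.measurableEmbedding, hN]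
  have hsub : closedBall 0 r ∩ (fun x => rot (T (rot.symm x))) ⁻¹' N
      ⊆ ⇑rot.symm ⁻¹' (closedBall 0 r ∩ T ⁻¹' (⇑rot ⁻¹' N)) :=
    fun x hx => ⟨rot_mem hx.1, hx.2⟩
  refine measure_mono_null hsub ?_
  rw [hp.measure_preimage_emb he, h _ h']

lemma contW (i : Fin 5) : ContinuousOn (Wm i) (closedBall (0 : V) r) := by
  have hu : Continuous u3 := by unfold u3; fun_prop
  have hx : Continuous uX := by unfold uX; fun_prop
  have c3 : ContinuousOn v3 (closedBall (0 : V) r) := hu.comp_continuousOn R.cont3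
  have c2 : ContinuousOn v2 (closedBall (0 : V) r) := by
    refine ((((continuousOn_id.sub R.cont2).norm.inv₀ ?_).add
      ((continuousOn_id.sub R.cont3).norm.inv₀ ?_)).add
      ((R.cont3.sub R.cont2).norm.inv₀ ?_)).sub hx.continuousOn |>.sub c3 <;> intro x h
    · exact norm_ne_zero_iff.mpr (sub_ne_zero.mpr (R.sep (i := 0) (j := 1) h h (by decide)))
    · exact norm_ne_zero_iff.mpr (sub_ne_zero.mpr (R.sep (i := 0) (j := 2) h h (by decide)))
    · exact norm_ne_zero_iff.mpr (sub_ne_zero.mpr (R.sep (i := 2) (j := 1) h h (by decide)))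
  fin_cases i
  · exact hx.continuousOn
  · exact c2
  · exact c3
  · exact c2.comp rot.symm.continuous.continuousOn fun x h => rot_mem h
  · exact c3.comp rot.symm.continuous.continuousOn fun x h => rot_mem h

/-- the certificate -/
def cert : Cert where
  B := closedBall (0 : V) r
  compact := isCompact_closedBall _ _
  pos := (measure_closedBall_pos volume _ R.pos).ne'
  F := Fm
  W := Wm
  F_zero _ := rfl
  cont i := by
    fin_cases i
    · exact continuousOn_id
    · exact R.cont2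
    · exact R.cont3
    · exact rot.continuous.comp_continuousOn
        (R.cont2.comp rot.symm.continuous.continuousOn fun x h => rot_mem h)
    · exact rot.continuous.comp_continuousOn
        (R.cont3.comp rot.symm.continuous.continuousOn fun x h => rot_mem h)
  contW := R.contW
  inj i := by
    fin_cases i
    · exact injOn_id _
    · exact R.inj2
    · exact R.inj3
    · exact fun x hx y hy h => rot.symm.injective (R.inj2 (rot_mem hx) (rot_mem hy) (rot.injective h))
    · exact fun x hx y hy h => rot.symm.injective (R.inj3 (rot_mem hx) (rot_mem hy) (rot.injective h))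
  null i := by
    fin_cases i
    · exact fun N hN => measure_mono_null inter_subset_right hN
    · exact R.null2
    · exact R.null3
    · exact null_rot R.null2
    · exact null_rot R.null3
  disj i j a ha b hb h := by
    by_contra hij
    exact R.sep ha hb hij h
  ineq i j k _ ha _ hb _ hc := R.all_ineq i j k ha hb hc
  exact p hp := (R.pat_good p hp).2

end Radius

end Vale.Agent.P121
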